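import Crest.Agent.N265.Jac.Tan

/-!
# Row 265 (helper83): the Jacobian criterion

Ideal level: `hq_le_tan`, `reg_at`, `local_eqs`, `cut`, `exists_der`.
Space level: `ldim_le_tan`, `smAt_local_eqs`, `smAt_locI_prime`, `I_le_rad`, `ldim_eq_hq`,
`zl_at` (zero loci of the expected tangent dimension are smooth and reduced), `smAt_near`
(smoothness is open and the dimension is locally constant).
-/

set_option autoImplicit false
noncomputable section
open MvPolynomial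

namespace Crest.Agent.N265.Jac

/-- dimension `≤` embedding dimension -/
theorem hq_le_tan {J : Ideal R} (hfin : FinJ J) {x : Pt} (hJ : J ≤ mx x) :
    hq J (mx x) ≤ Module.finrank ℂ (TanI J x) := by
  have := hfin.noeth
  obtain ⟨z, hz, hg⟩ := exists_gen hfin hJ
  exact (hq_le_of_gen hJ z hz hg).1

/-- **regular points**: if `J' ≤ J` and the tangent space of `J'` is no bigger than the dimension
of `J`, then `J = J'` near `x`, and `J'` is smooth and prime near `x`. -/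
theorem reg_at {J J' : Ideal R} (hfin : FinJ J') (hle : J' ≤ J) {x : Pt} (hJ : J ≤ mx x)
    (h : (Module.finrank ℂ (TanI J' x) : ℕ∞) ≤ hq J (mx x)) :
    hq J (mx x) = Module.finrank ℂ (TanI J' x) ∧ hq J' (mx x) = Module.finrank ℂ (TanI J' x) ∧
      (locI J' (mx x)).IsPrime ∧ (∃ r, eval x r ≠ 0 ∧ ∀ a ∈ J, r * a ∈ J') ∧
      TanI J x = TanI J' x := by
  have := hfin.noeth
  obtain ⟨z, hz, hg⟩ := exists_gen hfin (hle.trans hJ)
  obtain ⟨h1, h2, h3, r, hr, h4⟩ := regular_point hle hJ z hz hg h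
  exact ⟨h1, h2, h3, ⟨r, hr, h4⟩,
    le_antisymm (TanI_anti hle x) (TanI_le_of_local hJ fun a ha => ⟨r, hr, h4 a ha⟩)⟩


theorem mem_TanI_sup_span {ι : Type*} {J₀ : Ideal R} {x ξ : Pt} {y : ι → R}
    (hy : ∀ j, y j ∈ mx x) :
    ξ ∈ TanI (J₀ ⊔ Ideal.span (Set.range y)) x ↔ ξ ∈ TanI J₀ x ∧ ∀ j, dAt x ξ (y j) = 0 := by
  rw [TanI_sup, Submodule.mem_inf, mem_TanI_span (by rintro _ ⟨j, rfl⟩; exact hy j),
    Set.forall_mem_range]

theorem sup_span_le {ι : Type*} {J₀ J : Ideal R} (h : J₀ ≤ J) {y : ι → R} (hy : ∀ j, y j ∈ J) :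
    J₀ ⊔ Ideal.span (Set.range y) ≤ J :=
  sup_le h (Ideal.span_le.2 (by rintro _ ⟨j, rfl⟩; exact hy j))

/-- **local equations** of a smooth point of `V(J)` inside `V(J₀)` -/
theorem local_eqs {J₀ J : Ideal R} (hfin : FinJ J₀) (hle : J₀ ≤ J) {x : Pt} (hJ : J ≤ mx x)
    (hs : (Module.finrank ℂ (TanI J x) : ℕ∞) ≤ hq J (mx x)) :
    ∃ (c : ℕ) (y : Fin c → R) (ξ : Fin c → Pt), (∀ j, y j ∈ J) ∧ (∀ i, ξ i ∈ TanI J₀ x) ∧
      (∀ i j, dAt x (ξ i) (y j) = if i = j then 1 else 0) ∧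
      Module.finrank ℂ (TanI J x) + c = Module.finrank ℂ (TanI J₀ x) ∧
      ∃ r, eval x r ≠ 0 ∧ ∀ a ∈ J, r * a ∈ J₀ ⊔ Ideal.span (Set.range y) := by
  obtain ⟨c, y, ξ, h1, h2, h3, h4, h5⟩ := exists_dual_ideal hfin J x
  rw [sup_eq_right.2 hle] at h5
  refine ⟨c, y, ξ, h1, h2, h3, h5, ?_⟩
  have hT : TanI (J₀ ⊔ Ideal.span (Set.range y)) x = TanI J x := by
    refine le_antisymm (fun η hη a ha => ?_) (TanI_anti (sup_span_le hle h1) x)
    obtain ⟨h6, h7⟩ := (mem_TanI_sup_span fun j => hJ (h1 j)).1 hη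
    obtain ⟨co, hco⟩ := h4 a ha
    rw [hco η h6]
    simp [h7]
  exact (reg_at (hfin.mono le_sup_left) (sup_span_le hle h1) hJ (by rw [hT]; exact hs)).2.2.2.1

/-- cutting by functions with independent differentials lowers the tangent space exactly -/
theorem finrank_tan_cut {J₀ : Ideal R} (hfin : FinJ J₀) {x : Pt} {c : ℕ} {y : Fin c → R}
    (hy : ∀ j, y j ∈ mx x) {ξ : Fin c → Pt} (hξ : ∀ i, ξ i ∈ TanI J₀ x)
    (hd : (Matrix.of fun i j => dAt x (ξ i) (y j)).det ≠ 0) :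
    Module.finrank ℂ (TanI (J₀ ⊔ Ideal.span (Set.range y)) x) + c
      = Module.finrank ℂ (TanI J₀ x) := by
  have := hfin.finite_tan x
  let φ : TanI J₀ x →ₗ[ℂ] (Fin c → ℂ) := LinearMap.pi fun j => dL x (y j) ∘ₗ (TanI J₀ x).subtype
  have hs : LinearMap.range φ = ⊤ := by
    rw [eq_top_iff]
    intro w _
    have hu : IsUnit (Matrix.of fun i j => dAt x (ξ i) (y j)) :=
      (Matrix.isUnit_iff_isUnit_det _).2 (isUnit_iff_ne_zero.2 hd)
    obtain ⟨a, ha⟩ := Matrix.vecMul_surjective_iff_isUnit.2 hu w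
    refine ⟨∑ i, a i • ⟨ξ i, hξ i⟩, ?_⟩
    rw [map_sum, ← ha]
    funext j
    simp [φ, Matrix.vecMul, dotProduct]
  have h1 := LinearMap.finrank_range_add_finrank_ker φ
  rw [hs, finrank_top, Module.finrank_fintype_fun_eq_card, Fintype.card_fin] at h1
  rw [← h1, add_comm, ← Submodule.finrank_map_subtype_eq]
  suffices h2 : TanI (J₀ ⊔ Ideal.span (Set.range y)) x
      = Submodule.map (TanI J₀ x).subtype (LinearMap.ker φ) by rw [h2]
  ext η
  rw [mem_TanI_sup_span hy]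
  constructor
  · rintro ⟨h3, h4⟩
    exact ⟨⟨η, h3⟩, funext h4, rfl⟩
  · rintro ⟨η, hη, rfl⟩
    exact ⟨η.2, fun j => congrFun hη j⟩

/-- **cutting a smooth point** by `r` equations with the expected tangent space -/
theorem cut {J₀ J : Ideal R} (hfin : FinJ J₀) {x : Pt} {n r : ℕ} (hn : (n : ℕ∞) ≤ hq J₀ (mx x))
    (s : Fin r → R) (hle : J₀ ⊔ Ideal.span (Set.range s) ≤ J) (hJ : J ≤ mx x)
    (hrad : ∀ a ∈ J, ∃ ρ, eval x ρ ≠ 0 ∧ ∃ k : ℕ, ρ * a ^ k ∈ J₀ ⊔ Ideal.span (Set.range s))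
    (ht : Module.finrank ℂ (TanI (J₀ ⊔ Ideal.span (Set.range s)) x) + r ≤ n) :
    Module.finrank ℂ (TanI J x) + r = n ∧ hq J (mx x) = Module.finrank ℂ (TanI J x) ∧
      TanI J x = TanI (J₀ ⊔ Ideal.span (Set.range s)) x ∧
      ∃ ρ, eval x ρ ≠ 0 ∧ ∀ a ∈ J, ρ * a ∈ J₀ ⊔ Ideal.span (Set.range s) := by
  have := hfin.noeth
  have h1 := hq_le_sup_add (le_sup_left.trans (hle.trans hJ)) s
    (fun i => hJ (hle (Ideal.mem_sup_right (Ideal.subset_span ⟨i, rfl⟩))))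
  rw [← hq_eq_of_local hJ hle hrad] at h1
  have h2 : (Module.finrank ℂ (TanI (J₀ ⊔ Ideal.span (Set.range s)) x) : ℕ∞) ≤ hq J (mx x) := by
    have h3 : (Module.finrank ℂ (TanI (J₀ ⊔ Ideal.span (Set.range s)) x) : ℕ∞) + r
        ≤ hq J (mx x) + r := le_trans (by exact_mod_cast ht) (hn.trans h1)
    exact (ENat.add_le_add_iff_right (ENat.natCast_ne_top r)).1 h3
  obtain ⟨h4, -, -, h5, h6⟩ := reg_at (hfin.mono le_sup_left) hle hJ h2
  refine ⟨?_, by rw [h6, h4], h6, h5⟩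
  rw [h4] at h1
  have h7 : n ≤ Module.finrank ℂ (TanI (J₀ ⊔ Ideal.span (Set.range s)) x) + r := by
    exact_mod_cast hn.trans h1
  rw [h6]
  omega

/-- derivations dual to local equations: `d i (y j) = f δ_ij` exactly, with `f(x) = 1`, and the
`d i` are `R`-combinations of the constant vector fields `ξ k` -/
theorem exists_der {x : Pt} {c : ℕ} (y : Fin c → R) (ξ : Fin c → Pt)
    (hd : ∀ i j, dAt x (ξ i) (y j) = if i = j then 1 else 0) :
    ∃ (f : R) (A : Matrix (Fin c) (Fin c) R), eval x f = 1 ∧ ∀ i j,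
      (∑ k, A i k • mkDerivation ℂ (fun v => (C (ξ k v) : R))) (y j) = if i = j then f else 0 := by
  let N : Matrix (Fin c) (Fin c) R :=
    Matrix.of fun k j => mkDerivation ℂ (fun v => (C (ξ k v) : R)) (y j)
  refine ⟨N.det, N.adjugate, ?_, fun i j => ?_⟩
  · rw [RingHom.map_det]
    have : (eval x).mapMatrix N = 1 := by
      ext i j
      rw [Matrix.one_apply, ← hd i j]
      rfl
    rw [this, Matrix.det_one]
  · have := congrFun (congrFun (Matrix.adjugate_mul N) i) j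
    rw [Matrix.mul_apply, Matrix.smul_apply, Matrix.one_apply] at this
    have h2 : (∑ k, N.adjugate i k • mkDerivation ℂ (fun v => (C (ξ k v) : R))) (y j)
        = ∑ k, N.adjugate i k * N k j := by
      have h3 := map_sum (Derivation.coeFnAddMonoidHom (R := ℂ) (A := R) (M := R))
        (fun k => N.adjugate i k • mkDerivation ℂ (fun v => (C (ξ k v) : R))) Finset.univ
      have h4 := congrFun h3 (y j)
      rw [Finset.sum_apply] at h4
      exact h4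
    rw [h2]
    refine this.trans ?_
    split_ifs <;> simp

/-! ### spaces -/

theorem ldim_le_tan {X : Spc} {x : Pt} (hx : x ∈ X.pts) :
    X.ldim x ≤ Module.finrank ℂ (X.Tan x) := hq_le_tan (finJ_I X) (I_le_mx hx)


theorem sm_smAt {X : Spc} {n : ℕ} (h : X.Sm n) {x : Pt} (hx : x ∈ X.pts) : X.SmAt x := by
  obtain ⟨h1, h2⟩ := h x hx
  rw [Spc.SmAt, h1, h2]


theorem sm_of_le {X : Spc} {n : ℕ} (h : ∀ x ∈ X.pts, Module.finrank ℂ (X.Tan x) ≤ n)
    (hn : ∀ x ∈ X.pts, (n : ℕ∞) ≤ X.ldim x) : X.Sm n := fun x hx => by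
  have h1 := ldim_le_tan hx
  have h2 : n ≤ Module.finrank ℂ (X.Tan x) := by exact_mod_cast (hn x hx).trans h1
  exact ⟨le_antisymm (h x hx) h2,
    le_antisymm (h1.trans (by exact_mod_cast h x hx)) (hn x hx)⟩

/-- a smooth point lies on exactly one component -/
theorem smAt_locI_prime {X : Spc} {x : Pt} (hx : x ∈ X.pts) (h : X.SmAt x) :
    (locI X.I (mx x)).IsPrime :=
  (reg_at (finJ_I X) le_rfl (I_le_mx hx) h).2.2.1

/-- local equations of a smooth point of `Z` inside any `V(J₀) ⊇ Z` -/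
theorem smAt_local_eqs {Z : Spc} {J₀ : Ideal R} (hfin : FinJ J₀) (hle : J₀ ≤ Z.I) {x : Pt}
    (hx : x ∈ Z.pts) (h : Z.SmAt x) :
    ∃ (c : ℕ) (y : Fin c → R) (ξ : Fin c → Pt), (∀ j, y j ∈ Z.I) ∧ (∀ i, ξ i ∈ TanI J₀ x) ∧
      (∀ i j, dAt x (ξ i) (y j) = if i = j then 1 else 0) ∧
      Module.finrank ℂ (Z.Tan x) + c = Module.finrank ℂ (TanI J₀ x) ∧
      ∃ r, eval x r ≠ 0 ∧ ∀ a ∈ Z.I, r * a ∈ J₀ ⊔ Ideal.span (Set.range y) :=
  local_eqs hfin hle (I_le_mx hx) h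

/-- a function which is invertible at `x` and whose non-vanishing forces relevance -/
theorem exists_rel_fun {B : Finset ℕ} {x : Pt} (hx : Rel B x) :
    ∃ ρ : R, eval x ρ ≠ 0 ∧ ∀ y, eval y ρ ≠ 0 → Rel B y := by
  choose! v hv hv' using hx
  refine ⟨∏ b ∈ B, X (v b), ?_, fun y hy b hb => ⟨v b, hv b hb, ?_⟩⟩
  · rw [map_prod]
    exact Finset.prod_ne_zero_iff.2 fun b hb => by rw [eval_X]; exact hv' b hb
  · rw [map_prod] at hy
    simpa using Finset.prod_ne_zero_iff.1 hy b hb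

theorem mem_pts_of_le {X : Spc} {y : Pt} (hy : Rel X.B y) (h : X.I ≤ mx y) : y ∈ X.pts :=
  X.closed y hy fun _ hr => h hr

/-- if the relevant zeros of `J` near `x` lie in `Z`, then `Z.I` is in the radical of `J` near `x` -/
theorem I_le_rad {Z : Spc} {J : Ideal R} (hfin : FinJ J) {x : Pt} (hx : Rel Z.B x) {g : R}
    (hg : eval x g ≠ 0) (h : ∀ y, Rel Z.B y → eval y g ≠ 0 → J ≤ mx y → y ∈ Z.pts) {a : R}
    (ha : a ∈ Z.I) : ∃ ρ, eval x ρ ≠ 0 ∧ ∃ k : ℕ, ρ * a ^ k ∈ J := by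
  obtain ⟨ρ, hρ, hρ'⟩ := exists_rel_fun hx
  obtain ⟨k, hk⟩ := nss hfin (a := ρ * g * a) fun y hy => by
    rw [map_mul, map_mul]
    by_cases h1 : eval y ρ = 0
    · rw [h1, zero_mul, zero_mul]
    by_cases h2 : eval y g = 0
    · rw [h2, mul_zero, zero_mul]
    rw [ha y (h y (hρ' y h1) h2 hy), mul_zero]
  refine ⟨(ρ * g) ^ k, ?_, k, by rwa [← mul_pow]⟩
  rw [map_pow, map_mul]
  exact pow_ne_zero _ (mul_ne_zero hρ hg)

/-- the local dimension can be computed from any set-theoretic local equations -/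
theorem ldim_eq_hq {Z : Spc} {J : Ideal R} (hfin : FinJ J) {x : Pt} (hx : x ∈ Z.pts)
    (hle : J ≤ Z.I) {g : R} (hg : eval x g ≠ 0)
    (h : ∀ y, Rel Z.B y → eval y g ≠ 0 → J ≤ mx y → y ∈ Z.pts) : Z.ldim x = hq J (mx x) :=
  hq_eq_of_local (I_le_mx hx) hle fun _ ha => I_le_rad hfin (Z.rel x hx) hg h ha

/-- Krull: a locus cut out near `x` by `r` equations has codimension at most `r` -/
theorem ldim_le_add {W Z : Spc} (hZ : Z.Sub W) {x : Pt} (hx : x ∈ Z.pts) {r : ℕ} (s : Fin r → R)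
    (hs : ∀ i, s i ∈ Z.I) {g : R} (hg : eval x g ≠ 0)
    (h : ∀ y ∈ W.pts, eval y g ≠ 0 → (∀ i, eval y (s i) = 0) → y ∈ Z.pts) :
    W.ldim x ≤ Z.ldim x + r := by
  have := (finJ_I W).noeth
  have hWZ : W.I ≤ Z.I := fun a ha y hy => ha y (hZ.2 hy)
  rw [ldim_eq_hq ((finJ_I W).mono le_sup_left) hx (sup_span_le hWZ hs) hg fun y hy hgy hJ =>
    h y (mem_pts_of_le (hZ.1 ▸ hy) (le_sup_left.trans hJ)) hgy fun i =>
      hJ (Ideal.mem_sup_right (Ideal.subset_span ⟨i, rfl⟩))]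
  exact hq_le_sup_add (I_le_mx (hZ.2 hx)) s fun i => I_le_mx hx (hs i)

/-- **zero locus lemma, smoothness part**: `Z ⊆ W` is cut out near `x` by `r` equations, `W` has
dimension `≥ n` at `x` and the equations cut the tangent space down to dimension `≤ n - r`. -/
theorem zl_at {W Z : Spc} (hZ : Z.Sub W) {x : Pt} (hx : x ∈ Z.pts) {n r : ℕ}
    (hn : (n : ℕ∞) ≤ W.ldim x) (s : Fin r → R) (hs : ∀ i, s i ∈ Z.I) {g : R} (hg : eval x g ≠ 0)
    (h : ∀ y ∈ W.pts, eval y g ≠ 0 → (∀ i, eval y (s i) = 0) → y ∈ Z.pts)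
    (T : Submodule ℂ Pt) (hT : ∀ ξ ∈ W.Tan x, (∀ i, dAt x ξ (s i) = 0) → ξ ∈ T)
    [Module.Finite ℂ T] (ht : Module.finrank ℂ T + r ≤ n) :
    Module.finrank ℂ (Z.Tan x) + r = n ∧ Z.ldim x = Module.finrank ℂ (Z.Tan x) ∧
      (∀ ξ, ξ ∈ Z.Tan x ↔ ξ ∈ W.Tan x ∧ ∀ i, dAt x ξ (s i) = 0) ∧
      ∃ ρ, eval x ρ ≠ 0 ∧ ∀ a ∈ Z.I, ρ * a ∈ W.I ⊔ Ideal.span (Set.range s) := by
  have hWZ : W.I ≤ Z.I := fun a ha y hy => ha y (hZ.2 hy)
  have hsx : ∀ i, s i ∈ mx x := fun i => I_le_mx hx (hs i)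
  obtain ⟨h1, h2, h3, h4⟩ := cut (finJ_I W) hn s (sup_span_le hWZ hs) (I_le_mx hx)
    (fun a ha => I_le_rad (J := W.I ⊔ Ideal.span (Set.range s))
      ((finJ_I W).mono le_sup_left) (Z.rel x hx) hg (fun y hy hgy hJ =>
      h y (mem_pts_of_le (hZ.1 ▸ hy) (le_sup_left.trans hJ)) hgy fun i =>
        hJ (Ideal.mem_sup_right (Ideal.subset_span (Set.mem_range_self i)))) ha)
    (le_trans (Nat.add_le_add_right (Submodule.finrank_mono fun ξ hξ =>
      hT ξ ((mem_TanI_sup_span hsx).1 hξ).1 ((mem_TanI_sup_span hsx).1 hξ).2) r) ht)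
  exact ⟨h1, h2, fun ξ => by rw [Spc.Tan, h3, mem_TanI_sup_span hsx]; rfl, h4⟩

/-- smoothness is open and the dimension is locally constant on the smooth locus -/
theorem smAt_near {X : Spc} {x : Pt} (hx : x ∈ X.pts) (h : X.SmAt x) :
    ∃ g : R, eval x g ≠ 0 ∧ ∀ y ∈ X.pts, eval y g ≠ 0 →
      X.SmAt y ∧ Module.finrank ℂ (X.Tan y) = Module.finrank ℂ (X.Tan x) := by
  obtain ⟨V, -, hV⟩ := X.fin
  have hle : varI V ≤ X.I := varI_le fun v hv y hy => by rw [eval_X]; exact hV y hy v hv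
  obtain ⟨c, s, ξ, h1, h2, h3, h4, r, hr, h5⟩ := smAt_local_eqs (finJ_varI V) hle hx h
  rw [finrank_tan_varI (hV x hx)] at h4
  let N : Matrix (Fin c) (Fin c) R :=
    Matrix.of fun k j => mkDerivation ℂ (fun v => (C (ξ k v) : R)) (s j)
  have hN : ∀ y, eval y N.det = (Matrix.of fun i j => dAt y (ξ i) (s j)).det := fun y => by
    rw [RingHom.map_det]; rfl
  refine ⟨r * N.det, ?_, fun y hy hg => ?_⟩
  · rw [map_mul, hN]
    have : (Matrix.of fun i j => dAt x (ξ i) (s j)) = 1 := by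
      ext i j
      rw [Matrix.of_apply, h3, Matrix.one_apply]
    rw [this, Matrix.det_one, mul_one]
    exact hr
  · rw [map_mul, hN] at hg
    have hξ : ∀ i, ξ i ∈ TanI (varI V) y := fun i => by
      rw [tan_varI (hV y hy), ← tan_varI (hV x hx)]; exact h2 i
    have h6 := finrank_tan_cut (finJ_varI V) (fun j => I_le_mx hy (h1 j)) hξ
      (right_ne_zero_of_mul hg)
    rw [finrank_tan_varI (hV y hy)] at h6
    obtain ⟨h7, h8, -, -⟩ := cut (finJ_varI V) (card_le_hq_varI (hV y hy)) s (sup_span_le hle h1)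
      (I_le_mx hy) (fun a ha => ⟨r, left_ne_zero_of_mul hg, 1, by rw [pow_one]; exact h5 a ha⟩)
      h6.le
    refine ⟨h8.ge, ?_⟩
    change Module.finrank ℂ (TanI X.I y) = _
    omega

end Crest.Agent.N265.Jac
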