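import Crest.Agent.N265.Jac.Jac
import Crest.Agent.R278.Dim

-- ▼ part N265/Jac/Scal
section

/-!
# Row 265 (helper83): homogeneity

`scal w` rescales the variables; a subspace stable under some power of `gam` is stable under the
whole torus (`stab_torus`).  Consequences: minimal primes of stable ideals are stable
(`stab_minimalPrimes`), spaces are stable under the torus (`torus_mem`), the subspace `subI X J`
cut out by a stable ideal.
-/

set_option autoImplicit false
noncomputable section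
open MvPolynomial

namespace Crest.Agent.N265.Jac

/-- rescale the variables -/
def scal (w : Var → ℂ) : R →ₐ[ℂ] R := aeval fun v => C (w v) * X v

@[simp] theorem scal_X (w : Var → ℂ) (v : Var) : scal w (X v) = C (w v) * X v := by simp [scal]
@[simp] theorem scal_C (w : Var → ℂ) (c : ℂ) : scal w (C c) = C c := by simp [scal]

theorem eval_scal (w x : Pt) (r : R) : eval x (scal w r) = eval (w * x) r := by
  induction r using MvPolynomial.induction_on with
  | C c => simp
  | add p q hp hq => simp [hp, hq]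
  | mul_X p v hp => simp [hp]

theorem scal_scal (w w' : Var → ℂ) (r : R) : scal w (scal w' r) = scal (w * w') r := by
  induction r using MvPolynomial.induction_on with
  | C c => simp
  | add p q hp hq => simp [hp, hq]
  | mul_X p v hp => simp only [map_mul, hp, scal_X, scal_C, Pi.mul_apply]; ring

theorem scal_one (r : R) : scal 1 r = r := by
  induction r using MvPolynomial.induction_on with
  | C c => simp
  | add p q hp hq => simp [hp, hq]
  | mul_X p v hp => simp [hp]

theorem gam_eq_scal (r : R) : gam r = scal (fun v => chi (vdeg v)) r := rfl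

theorem scal_monomial (w : Var → ℂ) (s : Var →₀ ℕ) (a : ℂ) :
    scal w (monomial s a) = (s.prod fun v n => w v ^ n) • monomial s a := by
  rw [scal, aeval_monomial, monomial_eq, smul_eq_C_mul]
  simp only [mul_pow, Finsupp.prod, Finset.prod_mul_distrib, map_prod, map_pow, algebraMap_eq]
  ring

/-- stability under one rescaling implies stability under every rescaling which is constant on the
eigenspaces of the first -/
theorem stable_of {N : Submodule ℂ R} {w w' : Var → ℂ} (hN : ∀ r ∈ N, scal w r ∈ N)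
    (h : ∀ s s' : Var →₀ ℕ, (s.prod fun v n => w v ^ n) = (s'.prod fun v n => w v ^ n) →
      (s.prod fun v n => w' v ^ n) = (s'.prod fun v n => w' v ^ n)) {r : R} (hr : r ∈ N) :
    scal w' r ∈ N := by
  classical
  let mw : (Var →₀ ℕ) → ℂ := fun s => s.prod fun v n => w v ^ n
  let φ : ℂ → ℂ := fun c => if hc : ∃ s, mw s = c then hc.choose.prod fun v n => w' v ^ n else 0
  have hφ : ∀ s, φ (mw s) = s.prod fun v n => w' v ^ n := fun s => by
    have hc : ∃ s', mw s' = mw s := ⟨s, rfl⟩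
    simp only [φ, dif_pos hc]
    exact h _ _ hc.choose_spec
  let g : Module.End ℂ R := (scal w).toLinearMap
  let p := Lagrange.interpolate (r.support.image mw) id φ
  have h1 : ∀ q : Polynomial ℂ, ∀ a ∈ N, Polynomial.aeval g q a ∈ N := by
    intro q
    induction q using Polynomial.induction_on with
    | C c => intro a ha; simpa using N.smul_mem c ha
    | add p q hp hq => intro a ha; simpa using add_mem (hp a ha) (hq a ha)
    | monomial n c hq =>
      intro a ha
      rw [pow_succ, ← mul_assoc, map_mul, Polynomial.aeval_X]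
      exact hq _ (hN a ha)
  have h2 : ∀ (q : Polynomial ℂ) (s : Var →₀ ℕ) (a : ℂ),
      Polynomial.aeval g q (monomial s a) = q.eval (mw s) • monomial s a := by
    intro q s a
    induction q using Polynomial.induction_on with
    | C c => simp
    | add p q hp hq => simp [hp, hq, add_smul]
    | monomial n c hq =>
      rw [pow_succ, ← mul_assoc, map_mul, Polynomial.aeval_X, Module.End.mul_apply]
      have : g (monomial s a) = mw s • monomial s a := scal_monomial w s a
      rw [this, map_smul, hq, smul_smul, Polynomial.eval_mul (q := Polynomial.X),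
        Polynomial.eval_X, mul_comm]
  have h3 : Polynomial.aeval g p r = scal w' r := by
    conv_lhs => rw [r.as_sum]
    conv_rhs => rw [r.as_sum]
    rw [map_sum, map_sum]
    refine Finset.sum_congr rfl fun s hs => ?_
    rw [h2, scal_monomial, ← hφ]
    congr 1
    exact Lagrange.eval_interpolate_at_node (v := id) φ (Set.injOn_id _)
      (Finset.mem_image_of_mem mw hs)
  rw [← h3]
  exact h1 p r hr

/-- the degree of a monomial -/
def mdeg (s : Var →₀ ℕ) : D := s.sum fun v n => n • vdeg v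

/-- characters of the grading group -/
structure IsChar (τ : D → ℂ) : Prop where
  zero : τ 0 = 1
  add : ∀ d e, τ (d + e) = τ d * τ e

theorem IsChar.nsmul {τ : D → ℂ} (h : IsChar τ) (n : ℕ) (d : D) : τ (n • d) = τ d ^ n := by
  induction n with
  | zero => simpa using h.zero
  | succ n ih => rw [succ_nsmul, h.add, ih, pow_succ]

theorem IsChar.ne_zero {τ : D → ℂ} (h : IsChar τ) (d : D) : τ d ≠ 0 := by
  have := h.add d (-d)
  rw [add_neg_cancel, h.zero] at this
  exact left_ne_zero_of_mul_eq_one this.symm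

theorem IsChar.prod {τ : D → ℂ} (h : IsChar τ) (s : Var →₀ ℕ) :
    (s.prod fun v n => τ (vdeg v) ^ n) = τ (mdeg s) := by
  classical
  unfold mdeg Finsupp.prod Finsupp.sum
  induction s.support using Finset.induction_on with
  | empty => simpa using h.zero.symm
  | insert v t hv ih => rw [Finset.prod_insert hv, Finset.sum_insert hv, h.add, h.nsmul, ih]

theorem isChar_chi : IsChar chi := ⟨chi_zero, chi_add⟩
theorem IsChar.pow {τ : D → ℂ} (h : IsChar τ) (k : ℕ) : IsChar fun d => τ d ^ k :=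
  ⟨by simp [h.zero], fun d e => by rw [h.add, mul_pow]⟩
theorem IsChar.inv {τ : D → ℂ} (h : IsChar τ) : IsChar fun d => (τ d)⁻¹ :=
  ⟨by simp [h.zero], fun d e => by rw [h.add, mul_inv]⟩
/-- the character `d ↦ c ^ (d i)` -/
theorem isChar_zpow {c : ℂ} (hc : c ≠ 0) (i : Option ℕ) : IsChar fun d => c ^ (d i) :=
  ⟨by simp, fun d e => by rw [Finsupp.add_apply, zpow_add₀ hc]⟩

theorem gam_iterate (k : ℕ) (r : R) : gam^[k] r = scal (fun v => chi (vdeg v) ^ k) r := by
  induction k with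
  | zero => exact (scal_one r).symm.trans (by congr 2)
  | succ k ih =>
    rw [Function.iterate_succ_apply', ih, gam_eq_scal, scal_scal]
    congr 2
    funext v
    rw [pow_succ', Pi.mul_apply]

/-- a subspace stable under a power of `gam` is stable under the torus -/
theorem stab_torus_pow {N : Submodule ℂ R} {k : ℕ} (hk : k ≠ 0) (hN : ∀ r ∈ N, gam^[k] r ∈ N)
    {τ : D → ℂ} (hτ : IsChar τ) {r : R} (hr : r ∈ N) : scal (fun v => τ (vdeg v)) r ∈ N := by
  refine stable_of (w := fun v => chi (vdeg v) ^ k) (fun a ha => gam_iterate k a ▸ hN a ha)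
    (fun s s' h => ?_) hr
  rw [(isChar_chi.pow k).prod, (isChar_chi.pow k).prod, ← isChar_chi.nsmul,
    ← isChar_chi.nsmul] at h
  rw [hτ.prod, hτ.prod, nsmul_right_injective hk (chi_inj h)]

/-- `gam`-stable ideals -/
def StabI (J : Ideal R) : Prop := ∀ r ∈ J, gam r ∈ J

theorem stab_torus {J : Ideal R} (hJ : StabI J) {τ : D → ℂ} (hτ : IsChar τ) {r : R} (hr : r ∈ J) :
    scal (fun v => τ (vdeg v)) r ∈ J :=
  stab_torus_pow (N := J.restrictScalars ℂ) one_ne_zero hJ hτ hr

theorem stabI_of_pow {J : Ideal R} {k : ℕ} (hk : k ≠ 0) (hJ : ∀ r ∈ J, gam^[k] r ∈ J) : StabI J :=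
  fun _ hr => stab_torus_pow (N := J.restrictScalars ℂ) hk hJ isChar_chi hr

theorem stabI_I (X : Spc) : StabI X.I := fun _ h => Spc.gam_mem_I h

/-- the inverse of `gam` -/
def gamInv : R →ₐ[ℂ] R := scal fun v => (chi (vdeg v))⁻¹

theorem gam_gamInv (r : R) : gam (gamInv r) = r := by
  rw [gam_eq_scal, gamInv, scal_scal]
  refine Eq.trans ?_ (scal_one r)
  congr 2
  funext v
  exact mul_inv_cancel₀ (chi_ne _)

theorem gamInv_gam (r : R) : gamInv (gam r) = r := by
  rw [gam_eq_scal, gamInv, scal_scal]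
  refine Eq.trans ?_ (scal_one r)
  congr 2
  funext v
  exact inv_mul_cancel₀ (chi_ne _)

theorem gam_bijective : Function.Bijective gam :=
  ⟨Function.LeftInverse.injective gamInv_gam, Function.RightInverse.surjective gam_gamInv⟩

theorem StabI.inv {J : Ideal R} (hJ : StabI J) {r : R} (hr : r ∈ J) : gamInv r ∈ J :=
  stab_torus hJ isChar_chi.inv hr

theorem StabI.gam_mem_iff {J : Ideal R} (hJ : StabI J) {r : R} : gam r ∈ J ↔ r ∈ J :=
  ⟨fun h => gamInv_gam r ▸ hJ.inv h, hJ r⟩

theorem StabI.comap_eq {J : Ideal R} (hJ : StabI J) : J.comap gam = J :=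
  Ideal.ext fun _ => hJ.gam_mem_iff

theorem StabI.sup {J J' : Ideal R} (h : StabI J) (h' : StabI J') : StabI (J ⊔ J') := by
  intro r hr
  obtain ⟨a, ha, b, hb, rfl⟩ := Submodule.mem_sup.1 hr
  rw [map_add]
  exact add_mem (Ideal.mem_sup_left (h a ha)) (Ideal.mem_sup_right (h' b hb))

theorem StabI.inf {J J' : Ideal R} (h : StabI J) (h' : StabI J') : StabI (J ⊓ J') :=
  fun r hr => ⟨h r hr.1, h' r hr.2⟩

theorem StabI.radical {J : Ideal R} (h : StabI J) : StabI J.radical :=
  fun r ⟨k, hk⟩ => ⟨k, by rw [← map_pow]; exact h _ hk⟩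

theorem StabI.colon {J J' : Ideal R} (h : StabI J) (h' : StabI J') :
    StabI (J.colon (J' : Set R)) := by
  intro r hr
  rw [Submodule.mem_colon] at hr ⊢
  intro a ha
  have := h _ (hr _ (h'.inv ha))
  rwa [smul_eq_mul, map_mul, gam_gamInv] at this


theorem FinJ.finite_minimalPrimes {J : Ideal R} (h : FinJ J) : J.minimalPrimes.Finite := by
  have := h.noeth
  rw [Ideal.minimalPrimes_eq_comap]
  exact (minimalPrimes.finite_of_isNoetherianRing _).image _

/-- minimal primes of homogeneous ideals are homogeneous -/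
theorem stab_minimalPrimes {J P : Ideal R} (hfin : FinJ J) (hJ : StabI J)
    (hP : P ∈ J.minimalPrimes) : StabI P := by
  have h1 : ∀ Q ∈ J.minimalPrimes, Q.comap gam ∈ J.minimalPrimes := fun Q hQ => by
    have := Ideal.minimalPrimes_comap_of_surjective gam_bijective.2 hQ
    rwa [hJ.comap_eq] at this
  have h2 : ∀ n : ℕ, (Ideal.comap gam)^[n] P ∈ J.minimalPrimes := fun n => by
    induction n with
    | zero => exact hP
    | succ n ih => rw [Function.iterate_succ_apply']; exact h1 _ ih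
  have h3 : ∀ (n : ℕ) (Q : Ideal R) (r : R), r ∈ (Ideal.comap gam)^[n] Q ↔ gam^[n] r ∈ Q := by
    intro n
    induction n with
    | zero => intro Q r; rfl
    | succ n ih =>
      intro Q r
      rw [Function.iterate_succ_apply', Ideal.mem_comap, ih, Function.iterate_succ_apply]
  obtain ⟨i, j, hij, he⟩ := hfin.finite_minimalPrimes.exists_lt_map_eq_of_forall_mem h2
  refine stabI_of_pow (k := j - i) (by omega) fun r hr => ?_
  obtain ⟨a, rfl⟩ := (gam_bijective.iterate i).2 r
  rw [← Function.iterate_add_apply, Nat.sub_add_cancel hij.le, ← h3, ← he, h3]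
  exact hr

theorem Rel.scal {B : Finset ℕ} {x w : Pt} (hx : Rel B x) (hw : ∀ v, w v ≠ 0) : Rel B (w * x) :=
  fun b hb => let ⟨v, hv, h⟩ := hx b hb; ⟨v, hv, mul_ne_zero (hw v) h⟩


/-- the closed subspace cut out by a homogeneous ideal -/
def subI (X : Spc) (J : Ideal R) (hJ : StabI J) : Spc where
  B := X.B
  pts := {x | x ∈ X.pts ∧ J ≤ mx x}
  fin := let ⟨V, h1, h2⟩ := X.fin; ⟨V, h1, fun x hx => h2 x hx.1⟩
  rel := fun x hx => X.rel x hx.1
  closed := fun x hx h => ⟨X.closed x hx fun r hr => h r fun y hy => hr y hy.1,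
    fun r hr => h r fun _ hy => hy.2 hr⟩
  inv := fun x hx => ⟨X.inv x hx.1, fun r hr => by
    rw [mem_mx, ← eval_gam]; exact hx.2 (hJ r hr)⟩


theorem subI_sub (X : Spc) (J : Ideal R) (hJ : StabI J) : (subI X J hJ).Sub X :=
  ⟨rfl, fun _ hx => hx.1⟩

theorem le_subI_I (X : Spc) (J : Ideal R) (hJ : StabI J) : J ≤ (subI X J hJ).I :=
  fun _ hr _ hx => hx.2 hr

end Crest.Agent.N265.Jac
end
end

-- ▼ part N265/Jac/Irr

/-!
# Row 265 (helper83): noetherian induction, components, irreducible spaces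

`exists_finite_cover`, `spc_induction`, `comp` (components), `exists_components`,
`irred_of_smAt_conn`, `conn_of_irred`, `ldim_irred` (`= pdim X.I` at every point),
`ldim_lt_of_sub`, `eq_of_ldim_le`.
-/

set_option autoImplicit false
noncomputable section
open MvPolynomial

namespace Crest.Agent.N265.Jac

theorem FinJ.exists_max {J₀ : Ideal R} (h : FinJ J₀) (S : Set (Ideal R)) (hS : ∀ J ∈ S, J₀ ≤ J)
    (hne : S.Nonempty) : ∃ J ∈ S, ∀ J' ∈ S, J ≤ J' → J' = J := by
  have := h.noeth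
  obtain ⟨_, ⟨J, hJ, rfl⟩, hmax⟩ := (IsNoetherian.wf (R := R ⧸ J₀) (M := R ⧸ J₀) this).has_min
    (Ideal.map (Ideal.Quotient.mk J₀) '' S) (hne.image _)
  refine ⟨J, hJ, fun J' hJ' hle => ?_⟩
  have h1 : J'.map (Ideal.Quotient.mk J₀) = J.map (Ideal.Quotient.mk J₀) :=
    (eq_of_le_of_not_lt (Ideal.map_mono hle) (hmax _ ⟨J', hJ', rfl⟩)).symm
  have h2 := congrArg (Ideal.comap (Ideal.Quotient.mk J₀)) h1
  rwa [Ideal.comap_map_of_surjective _ Ideal.Quotient.mk_surjective,
    Ideal.comap_map_of_surjective _ Ideal.Quotient.mk_surjective, ← RingHom.ker_eq_comap_bot,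
    Ideal.mk_ker, sup_eq_left.2 (hS J hJ), sup_eq_left.2 (hS J' hJ')] at h2

/-- quasi-compactness for any set of points on which an ideal in finitely many variables vanishes -/
theorem FinJ.exists_finite_cover {J₀ : Ideal R} (h : FinJ J₀) {S : Set Pt}
    (hS : ∀ x ∈ S, J₀ ≤ mx x) {ι : Type*} (f : ι → R) (hf : ∀ x ∈ S, ∃ i, eval x (f i) ≠ 0) :
    ∃ t : Finset ι, ∀ x ∈ S, ∃ i ∈ t, eval x (f i) ≠ 0 := by
  classical
  obtain ⟨_, ⟨t, rfl⟩, hmax⟩ := h.exists_max
    (Set.range fun t : Finset ι => J₀ ⊔ Ideal.span (f '' t))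
    (by rintro _ ⟨t, rfl⟩; exact le_sup_left) ⟨_, ∅, rfl⟩
  refine ⟨t, fun x hx => ?_⟩
  obtain ⟨i, hi⟩ := hf x hx
  by_contra hc
  push Not at hc
  have h1 := hmax _ ⟨insert i t, rfl⟩
    (sup_le_sup_left (Ideal.span_mono (Set.image_mono (by simp))) _)
  have h2 : J₀ ⊔ Ideal.span (f '' t) ≤ mx x :=
    sup_le (hS x hx) (Ideal.span_le.2 (by rintro _ ⟨j, hj, rfl⟩; exact hc j hj))
  simp only at h1
  rw [← h1] at h2
  exact hi (h2 (Ideal.mem_sup_right (Ideal.subset_span ⟨i, by simp, rfl⟩)))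

/-- **quasi-compactness** -/
theorem exists_finite_cover (X : Spc) {ι : Type*} (f : ι → R)
    (hf : ∀ x ∈ X.pts, ∃ i, eval x (f i) ≠ 0) :
    ∃ t : Finset ι, ∀ x ∈ X.pts, ∃ i ∈ t, eval x (f i) ≠ 0 :=
  (finJ_I X).exists_finite_cover (fun _ hx => I_le_mx hx) f hf

theorem I_anti {Z X : Spc} (h : Z.pts ⊆ X.pts) : X.I ≤ Z.I := fun _ hr x hx => hr x (h hx)

theorem pts_subset_of_I_le {Z X : Spc} (hB : Z.B = X.B) (h : X.I ≤ Z.I) : Z.pts ⊆ X.pts :=
  fun z hz => mem_pts_of_le (hB ▸ Z.rel z hz) (h.trans (I_le_mx hz))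

theorem spc_ext_I {Z X : Spc} (hB : Z.B = X.B) (h : Z.I = X.I) : Z = X :=
  Spc.ext hB (Set.Subset.antisymm (pts_subset_of_I_le hB h.ge) (pts_subset_of_I_le hB.symm h.le))


theorem I_eq_top_iff {X : Spc} : X.I = ⊤ ↔ X.pts = ∅ := by
  constructor
  · intro h
    by_contra hc
    obtain ⟨x, hx⟩ := Set.nonempty_iff_ne_empty.2 hc
    exact (mx_isPrime x).ne_top (top_le_iff.1 (h ▸ I_le_mx hx))
  · intro h
    rw [Ideal.eq_top_iff_one]
    intro x hx
    rw [h] at hx
    exact hx.elim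

theorem sub_trans {Z Y X : Spc} (h : Z.Sub Y) (h' : Y.Sub X) : Z.Sub X :=
  ⟨h.1.trans h'.1, h.2.trans h'.2⟩



/-- the ideal of the subspace cut out by a relevant homogeneous prime -/
theorem subI_I_of_prime {X : Spc} {P : Ideal R} (hP : P.IsPrime) (hs : StabI P) (hle : X.I ≤ P)
    (hne : (subI X P hs).pts.Nonempty) : (subI X P hs).I = P := by
  refine le_antisymm (fun a ha => ?_) (le_subI_I X P hs)
  obtain ⟨x, hx⟩ := hne
  obtain ⟨ρ, hρ, k, hk⟩ := I_le_rad (Z := subI X P hs) ((finJ_I X).mono hle)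
    ((subI X P hs).rel x hx) (g := 1) (by simp)
    (fun y hy _ h => ⟨mem_pts_of_le hy (hle.trans h), h⟩) ha
  exact hP.mem_of_pow_mem k ((hP.mem_or_mem hk).resolve_left fun h => hρ (hx.2 h))

/-- the irreducible component given by a minimal prime -/
def comp (X : Spc) (P : Ideal R) (hP : P ∈ X.I.minimalPrimes) : Spc :=
  subI X P (stab_minimalPrimes (finJ_I X) (stabI_I X) hP)

theorem mem_comp {X : Spc} {P : Ideal R} {hP : P ∈ X.I.minimalPrimes} {x : Pt} :
    x ∈ (comp X P hP).pts ↔ x ∈ X.pts ∧ P ≤ mx x := Iff.rfl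

theorem comp_sub (X : Spc) (P : Ideal R) (hP : P ∈ X.I.minimalPrimes) : (comp X P hP).Sub X :=
  subI_sub _ _ _

theorem exists_comp {X : Spc} {x : Pt} (hx : x ∈ X.pts) :
    ∃ (P : Ideal R) (hP : P ∈ X.I.minimalPrimes), x ∈ (comp X P hP).pts :=
  let ⟨P, hP, h⟩ := Ideal.exists_minimalPrimes_le (I_le_mx hx); ⟨P, hP, hx, h⟩

/-- a function vanishing on all components but one, and not in the prime of that one -/
theorem exists_sep {J P : Ideal R} (hfin : FinJ J) (hP : P ∈ J.minimalPrimes) :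
    ∃ a, a ∉ P ∧ ∀ Q ∈ J.minimalPrimes, Q ≠ P → a ∈ Q := by
  classical
  have h1 : ∀ Q ∈ J.minimalPrimes, Q ≠ P → ∃ a, a ∉ P ∧ a ∈ Q := by
    intro Q hQ hne
    by_contra hc
    push Not at hc
    have hle : Q ≤ P := fun a ha => by_contra fun h => hc a h ha
    exact hne (le_antisymm hle (hP.2 hQ.1 hle))
  choose! f hf hf' using h1
  refine ⟨∏ Q ∈ hfin.finite_minimalPrimes.toFinset.erase P, f Q, fun h => ?_, fun Q hQ hne => ?_⟩
  · obtain ⟨Q, hQ, h'⟩ := (Ideal.IsPrime.prod_mem_iff (hp := hP.1.1)).1 h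
    rw [Finset.mem_erase, Set.Finite.mem_toFinset] at hQ
    exact hf Q hQ.2 hQ.1 h'
  · rw [← Finset.mul_prod_erase _ _ (Finset.mem_erase.2 ⟨hne, by simpa using hQ⟩)]
    exact Ideal.mul_mem_right _ _ (hf' Q hQ hne)

theorem comp_nonempty (X : Spc) (P : Ideal R) (hP : P ∈ X.I.minimalPrimes) :
    (comp X P hP).pts.Nonempty := by
  obtain ⟨a, ha, h⟩ := exists_sep (finJ_I X) hP
  by_contra hc
  refine ha (hP.1.2 fun x hx => ?_)
  obtain ⟨Q, hQ, hxQ⟩ := exists_comp hx
  by_cases e : Q = P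
  · subst e
    exact (hc ⟨x, hxQ⟩).elim
  · exact hxQ.2 (h Q hQ e)

theorem comp_I (X : Spc) (P : Ideal R) (hP : P ∈ X.I.minimalPrimes) : (comp X P hP).I = P :=
  subI_I_of_prime hP.1.1 _ hP.1.2 (comp_nonempty X P hP)

theorem comp_irred (X : Spc) (P : Ideal R) (hP : P ∈ X.I.minimalPrimes) : (comp X P hP).Irred := by
  rw [Spc.Irred, comp_I]; exact hP.1.1

/-- decomposition into finitely many irreducible components -/
theorem exists_components (X : Spc) : ∃ t : Finset Spc,
    (∀ Z ∈ t, Z.Sub X ∧ Z.Irred ∧ Z.I ∈ X.I.minimalPrimes) ∧ ∀ x ∈ X.pts, ∃ Z ∈ t, x ∈ Z.pts := by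
  classical
  have hf := (finJ_I X).finite_minimalPrimes
  have : Fintype X.I.minimalPrimes := hf.fintype
  refine ⟨Finset.univ.image fun P : X.I.minimalPrimes => comp X P.1 P.2, ?_, fun x hx => ?_⟩
  · intro Z hZ
    obtain ⟨P, -, rfl⟩ := Finset.mem_image.1 hZ
    exact ⟨comp_sub _ _ _, comp_irred _ _ _, by rw [comp_I]; exact P.2⟩
  · obtain ⟨P, hP, h⟩ := exists_comp hx
    exact ⟨_, Finset.mem_image.2 ⟨⟨P, hP⟩, Finset.mem_univ _, rfl⟩, h⟩

theorem irred_nonempty {X : Spc} (h : X.Irred) : X.pts.Nonempty :=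
  Set.nonempty_iff_ne_empty.2 fun e => h.ne_top (I_eq_top_iff.2 e)




theorem eq_locI_of_minimal {J P m : Ideal R} [m.IsPrime] (hp : (locI J m).IsPrime)
    (hP : P ∈ J.minimalPrimes) (hle : P ≤ m) : P = locI J m :=
  le_antisymm (hP.2 ⟨hp, le_locI J m⟩ (locI_le hP.1.1 hle hP.1.2)) (locI_le hP.1.1 hle hP.1.2)

/-- the complement of a component on which `X` is locally irreducible is closed -/
theorem exists_compl {X : Spc} {P : Ideal R} (hP : P ∈ X.I.minimalPrimes)
    (h : ∀ x ∈ (comp X P hP).pts, (locI X.I (mx x)).IsPrime) :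
    ∃ Z : Spc, Z.Sub X ∧ Z.pts = X.pts \ (comp X P hP).pts := by
  have hs := stab_minimalPrimes (finJ_I X) (stabI_I X) hP
  refine ⟨subI X _ ((stabI_I X).colon hs), subI_sub _ _ _, Set.ext fun y => ⟨?_, ?_⟩⟩
  · rintro ⟨hy, h1⟩
    refine ⟨hy, fun h2 => ?_⟩
    have := (finJ_I X).noeth
    obtain ⟨r, hr, h3⟩ := exists_denom (eq_locI_of_minimal (h y h2) hP h2.2).le
    exact hr (h1 (Submodule.mem_colon.2 fun a ha => h3 a ha))
  · rintro ⟨hy, h1⟩
    refine ⟨hy, fun r hr => ?_⟩
    obtain ⟨a, ha, ha'⟩ := SetLike.not_le_iff_exists.1 fun h2 => h1 ⟨hy, h2⟩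
    exact ((mx_isPrime y).mem_or_mem
      (I_le_mx hy (Submodule.mem_colon.1 hr a ha))).resolve_right ha'

/-- locally irreducible and connected ⇒ irreducible -/
theorem irred_of_conn {X : Spc} (hc : X.Conn) (h : ∀ x ∈ X.pts, (locI X.I (mx x)).IsPrime) :
    X.Irred := by
  obtain ⟨x, hx⟩ := hc.1
  obtain ⟨P, hP, hxP⟩ := exists_comp hx
  obtain ⟨Z, hZ, hZ'⟩ := exists_compl hP fun y hy => h y hy.1
  rcases hc.2 (comp X P hP) Z (comp_sub _ _ _) hZ
    (fun y hy => by rw [hZ']; by_cases h1 : y ∈ (comp X P hP).pts <;> simp [h1, hy])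
    (by rw [hZ']; exact Set.disjoint_sdiff_right) with h1 | h1
  · rw [h1] at hxP; exact hxP.elim
  · rw [hZ', Set.sdiff_eq_empty] at h1
    have : X.I = P := le_antisymm hP.1.2 fun a ha y hy => (h1 hy).2 ha
    rw [Spc.Irred, this]
    exact hP.1.1

/-- **smooth and connected ⇒ irreducible** -/
theorem irred_of_smAt_conn {X : Spc} (hc : X.Conn) (h : ∀ x ∈ X.pts, X.SmAt x) : X.Irred :=
  irred_of_conn hc fun x hx => smAt_locI_prime hx (h x hx)


/-! ### dimension of irreducible spaces -/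

theorem height_mvPolynomial (k : Type*) [Field k] :
    ∀ (s : ℕ) (m : Ideal (MvPolynomial (Fin s) k)), m.IsMaximal → (s : ℕ∞) ≤ m.height := by
  intro s
  induction s with
  | zero => intro m _; simp
  | succ s ih =>
    intro m hm
    let e := (finSuccEquiv k s).toRingEquiv
    have h1 : (m.map e).IsMaximal := Ideal.map_isMaximal_of_equiv e
    have h2 := Polynomial.isMaximal_comap_C_of_isJacobsonRing (m.map e)
    have h3 : (m.map e).LiesOver ((m.map e).comap Polynomial.C) := ⟨rfl⟩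
    rw [← RingEquiv.height_map e, Polynomial.height_eq_height_add_one ((m.map e).comap Polynomial.C)]
    push_cast
    gcongr
    exact ih _ h2

/-- all maximal ideals of an affine domain have height the transcendence degree -/
theorem height_eq_trdeg (k B : Type) [Field k] [CommRing B] [IsDomain B] [Algebra k B]
    [Algebra.FiniteType k B] : ∃ s : ℕ, Algebra.trdeg k B = s ∧ ringKrullDim B = s ∧
      ∀ m : Ideal B, m.IsMaximal → m.height = s := by
  obtain ⟨s, g, ginj, gint⟩ := exists_integral_inj_algHom_of_fg k B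
  let : Algebra (MvPolynomial (Fin s) k) B := g.toRingHom.toAlgebra
  have : IsScalarTower k (MvPolynomial (Fin s) k) B :=
    IsScalarTower.of_algebraMap_eq fun a => (g.commutes a).symm
  have : Algebra.IsIntegral (MvPolynomial (Fin s) k) B := ⟨gint⟩
  have : FaithfulSMul (MvPolynomial (Fin s) k) B := (faithfulSMul_iff_algebraMap_injective _ _).2 ginj
  have : FaithfulSMul k (MvPolynomial (Fin s) k) :=
    (faithfulSMul_iff_algebraMap_injective _ _).2 (MvPolynomial.C_injective _ _)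
  have : IsNoetherianRing B := Algebra.FiniteType.isNoetherianRing k B
  have hd : ringKrullDim B = s := by
    rw [Crest.Agent.R278.ringKrullDim_eq_of_isIntegral (R := MvPolynomial (Fin s) k) (S := B) ginj,
      MvPolynomial.ringKrullDim_of_isNoetherianRing, ringKrullDim_eq_zero_of_field]
    simp
  refine ⟨s, ?_, hd, fun m hm => le_antisymm ?_ ?_⟩
  · have h := trdeg_add_eq k (MvPolynomial (Fin s) k) (A := B)
    have h0 : Algebra.trdeg (MvPolynomial (Fin s) k) B = 0 := trdeg_eq_zero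
    rw [h0, add_zero] at h
    rw [← h, MvPolynomial.trdeg_of_isDomain]
    simp
  · have := Ideal.height_le_ringKrullDim_of_ne_top hm.ne_top
    rw [hd] at this
    exact_mod_cast this
  · have h1 := Ideal.isMaximal_comap_of_isIntegral_of_isMaximal (R := MvPolynomial (Fin s) k) m
    have h2 : m.LiesOver (m.comap (algebraMap (MvPolynomial (Fin s) k) B)) := ⟨rfl⟩
    rw [Ideal.height_eq_height_add_of_liesOver_of_hasGoingDown
      (m.comap (algebraMap (MvPolynomial (Fin s) k) B)) m]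
    exact (height_mvPolynomial k s _ h1).trans le_self_add

/-- the dimension of `V(P)` as a transcendence degree -/
def pdim (P : Ideal R) : ℕ := Cardinal.toNat (Algebra.trdeg ℂ (R ⧸ P))

theorem trdeg_eq_pdim {P : Ideal R} (hfin : FinJ P) (hP : P.IsPrime) :
    Algebra.trdeg ℂ (R ⧸ P) = pdim P := by
  have := hfin.finiteType
  obtain ⟨s, h1, -⟩ := height_eq_trdeg ℂ (R ⧸ P)
  rw [pdim, h1, Cardinal.toNat_natCast]


theorem hq_prime {P : Ideal R} (hfin : FinJ P) (hP : P.IsPrime) {x : Pt} (hx : P ≤ mx x) :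
    hq P (mx x) = pdim P := by
  have := hfin.finiteType
  obtain ⟨s, h1, -, h2⟩ := height_eq_trdeg ℂ (R ⧸ P)
  rw [pdim, h1, Cardinal.toNat_natCast]
  refine h2 _ (Ideal.IsMaximal.map_of_surjective_of_ker_le Ideal.Quotient.mk_surjective ?_)
  rwa [Ideal.mk_ker]

/-- **an irreducible space has the same dimension at all points** -/
theorem ldim_irred {X : Spc} (h : X.Irred) {x : Pt} (hx : x ∈ X.pts) : X.ldim x = pdim X.I :=
  hq_prime (finJ_I X) h (I_le_mx hx)

theorem ldim_mono {Z X : Spc} (h : Z.pts ⊆ X.pts) {x : Pt} (hx : x ∈ Z.pts) :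
    Z.ldim x ≤ X.ldim x := hq_anti (I_le_mx hx) (I_anti h)

theorem ldim_ne_top {X : Spc} {x : Pt} (hx : x ∈ X.pts) : X.ldim x ≠ ⊤ :=
  ne_top_of_le_ne_top (ENat.natCast_ne_top _) (ldim_le_tan hx)

/-- the local dimension is attained on a component -/
theorem exists_comp_ldim {X : Spc} {x : Pt} (hx : x ∈ X.pts) :
    ∃ (P : Ideal R) (hP : P ∈ X.I.minimalPrimes), x ∈ (comp X P hP).pts ∧ X.ldim x = pdim P := by
  have hf := (finJ_I X).finite_minimalPrimes.subset
    (Set.sep_subset X.I.minimalPrimes fun P => P ≤ mx x)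
  obtain ⟨P₀, hP₀, h₀⟩ := exists_comp hx
  obtain ⟨P, hP, hmax⟩ := Set.exists_max_image _ pdim hf ⟨P₀, hP₀, h₀.2⟩
  refine ⟨P, hP.1, ⟨hx, hP.2⟩, le_antisymm ?_ ?_⟩
  · rw [ldim_eq, hq_le_iff (I_le_mx hx)]
    intro s h1 h2
    have := s.head.isPrime
    obtain ⟨Q, hQ, hQ'⟩ := Ideal.exists_minimalPrimes_le h1
    have hQx : Q ≤ mx x :=
      hQ'.trans (le_trans (s.head_le (Fin.last _) : s.head.asIdeal ≤ s.last.asIdeal) h2)
    have h3 := (hq_le_iff hQx).1 le_rfl s hQ' h2
    rw [hq_prime ((finJ_I X).mono hQ.1.2) hQ.1.1 hQx] at h3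
    exact h3.trans (by exact_mod_cast hmax Q ⟨hQ, hQx⟩)
  · rw [← hq_prime ((finJ_I X).mono hP.1.1.2) hP.1.1.1 hP.2]
    exact hq_anti hP.2 hP.1.1.2

/-- a proper closed subspace of an irreducible space has smaller dimension -/
theorem ldim_lt_of_sub {Z X : Spc} (hX : X.Irred) (h : Z.Sub X) (hne : Z.pts ≠ X.pts) {x : Pt}
    (hx : x ∈ Z.pts) : Z.ldim x + 1 ≤ X.ldim x := by
  have : X.I.IsPrime := hX
  refine hq_succ_le (p := X.I) (I_le_mx hx) le_rfl fun q _ _ hq => ?_
  refine lt_of_lt_of_le (lt_of_le_of_ne (I_anti h.2) fun e => ?_) hq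
  exact hne (congrArg Spc.pts (spc_ext_I h.1 e.symm))


/-- an irreducible closed subspace whose dimension equals the tangent dimension of `X` along it is
a smooth connected component of `X` -/
theorem clopen_of_tan_le {Z X : Spc} (hZ : Z.Irred) (h : Z.Sub X)
    (ht : ∀ z ∈ Z.pts, (Module.finrank ℂ (X.Tan z) : ℕ∞) ≤ Z.ldim z) :
    Z.Sm (pdim Z.I) ∧ (∀ z ∈ Z.pts, Z.Tan z = X.Tan z) ∧
      (∀ z ∈ Z.pts, ∃ r, eval z r ≠ 0 ∧ ∀ a ∈ Z.I, r * a ∈ X.I) ∧
      ∃ Z' : Spc, Z'.Sub X ∧ Z'.pts = X.pts \ Z.pts := by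
  have h1 := fun z hz => reg_at (finJ_I X) (I_anti h.2) (I_le_mx hz) (ht z hz)
  refine ⟨fun z hz => ?_, fun z hz => (h1 z hz).2.2.2.2, fun z hz => (h1 z hz).2.2.2.1, ?_⟩
  · have h2 := ldim_irred hZ hz
    refine ⟨?_, h2⟩
    have h3 := (h1 z hz).1
    rw [← ldim_eq, h2, ← (h1 z hz).2.2.2.2] at h3
    exact_mod_cast h3.symm
  · refine ⟨subI X _ ((stabI_I X).colon (stabI_I Z)), subI_sub _ _ _, Set.ext fun y => ⟨?_, ?_⟩⟩
    · rintro ⟨hy, h2⟩
      refine ⟨hy, fun h3 => ?_⟩
      obtain ⟨r, hr, h4⟩ := (h1 y h3).2.2.2.1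
      exact hr (h2 (Submodule.mem_colon.2 fun a ha => h4 a ha))
    · rintro ⟨hy, h2⟩
      refine ⟨hy, fun r hr => ?_⟩
      obtain ⟨a, ha, ha'⟩ := SetLike.not_le_iff_exists.1
        fun h3 => h2 (mem_pts_of_le (h.1 ▸ X.rel y hy) h3)
      exact ((mx_isPrime y).mem_or_mem
        (I_le_mx hy (Submodule.mem_colon.1 hr a ha))).resolve_right ha'

end Crest.Agent.N265.Jac
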